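import Vale.Agent.P359.Gap.Spectral.TwoSpins
import Mathlib.Algebra.Order.Chebyshev
import Mathlib.Algebra.Order.Field.GeomSum

/-!
# P359 gap: the high levels of one particle cost little
-/

namespace Vale.Agent.P359.Gap

open Matrix Finset

noncomputable section

/-- The quotient of a form with entries at most one, on a vector with small support. -/
lemma quot_le_card {ι : Type} [Fintype ι] [DecidableEq ι] {g : Matrix ι ι ℝ} (hs : g.IsSymm)
    (hp : ∀ w, 0 ≤ w ⬝ᵥ (g *ᵥ w)) (hd : ∀ i, g i i ≤ 1) (v : ι → ℝ) (S : Finset ι)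
    (hv : ∀ i ∉ S, v i = 0) : quot g v ≤ S.card := by
  have hij : ∀ i j, |g i j| ≤ 1 := by
    intro i j
    have h1 := hp (Pi.single i 1 + Pi.single j 1)
    have h2 := hp (Pi.single i 1 - Pi.single j 1)
    simp only [mulVec_add, mulVec_sub, add_dotProduct, sub_dotProduct, dotProduct_add,
      dotProduct_sub, mulVec_single_one, single_dotProduct, one_mul, col_apply] at h1 h2
    have h3 := hs.apply i j
    rw [abs_le]
    constructor <;> linarith [hd i, hd j]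
  have hn : 0 ≤ v ⬝ᵥ v := Finset.sum_nonneg fun i _ => mul_self_nonneg (v i)
  have hS : ∀ F : ι → ℝ, (∀ i ∉ S, F i = 0) → ∑ i, F i = ∑ i ∈ S, F i := fun F hF =>
    (Finset.sum_subset (Finset.subset_univ S) fun i _ h => hF i h).symm
  refine div_le_of_le_mul₀ hn (Nat.cast_nonneg _) ?_
  calc v ⬝ᵥ (g *ᵥ v) ≤ ∑ i, ∑ j, |v i| * |v j| := by
        simp only [dotProduct, mulVec, Finset.mul_sum]
        refine Finset.sum_le_sum fun i _ => Finset.sum_le_sum fun j _ => ?_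
        refine (le_abs_self _).trans ?_
        rw [abs_mul, abs_mul]
        exact mul_le_mul_of_nonneg_left
          (mul_le_of_le_one_left (abs_nonneg _) (hij i j)) (abs_nonneg _)
    _ = (∑ i ∈ S, |v i|) ^ 2 := by
        rw [← hS (fun i => |v i|) (fun i hi => by simp [hv i hi]), sq, Finset.sum_mul_sum]
    _ ≤ S.card * ∑ i ∈ S, |v i| ^ 2 := sq_sum_le_card_mul_sum_sq
    _ = S.card * (v ⬝ᵥ v) := by
        rw [dotProduct, hS (fun i => v i * v i) (fun i hi => by simp [hv i hi])]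
        simp [sq]

lemma card_level (A B M : ℕ) :
    (univ.filter fun x : Fin (A + 1) × Fin (B + 1) => (x.1 : ℕ) + x.2 = M).card ≤ M + 1 := by
  refine (Finset.card_le_card_of_injOn (fun x => (x.1 : ℕ)) ?_ ?_).trans_eq (Finset.card_range _)
  · intro x hx
    simp only [Finset.coe_filter, Finset.mem_univ, true_and, Set.mem_ofPred_eq] at hx
    simp only [Finset.coe_range, Set.mem_Iio]
    omega
  · intro x hx y hy h
    simp only [Finset.coe_filter, Finset.mem_univ, true_and, Set.mem_ofPred_eq] at hx hy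
    exact Prod.ext (Fin.ext h) (Fin.ext (by simp only at h; omega))

/-- The quotient on a highest weight vector lies between zero and the size of its level. -/
lemma quot_hw_bounds {A B : ℕ}
    {g : Matrix (Fin (A + 1) × Fin (B + 1)) (Fin (A + 1) × Fin (B + 1)) ℝ} (hs : g.IsSymm)
    (hp : ∀ w, 0 ≤ w ⬝ᵥ (g *ᵥ w)) (hd : ∀ i, g i i ≤ 1) (M : ℕ) :
    0 ≤ quot g (hw A B M) ∧ quot g (hw A B M) ≤ (M : ℝ) + 1 := by
  refine ⟨div_nonneg (hp _) (Finset.sum_nonneg fun i _ => mul_self_nonneg _), ?_⟩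
  refine (quot_le_card hs hp hd _ (univ.filter fun x => (x.1 : ℕ) + x.2 = M) ?_).trans ?_
  · intro x hx
    simp only [Finset.mem_filter, Finset.mem_univ, true_and] at hx
    exact if_neg hx
  · exact_mod_cast card_level A B M

lemma choose_mul_pow_le {Q : ℕ} (hQ : 2 ≤ Q) :
    ∀ M, M ≤ Q → Q.choose M * 2 ^ M ≤ 4 * (2 * Q - 2).choose M := by
  intro M
  induction M with
  | zero => intro _; simp
  | succ M ih =>
    intro hM
    rcases le_or_gt 2 M with h | h
    · refine Nat.le_of_mul_le_mul_right ?_ (Nat.succ_pos M)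
      calc Q.choose (M + 1) * 2 ^ (M + 1) * (M + 1)
          = Q.choose (M + 1) * (M + 1) * 2 ^ (M + 1) := by ring
        _ = Q.choose M * 2 ^ M * ((Q - M) * 2) := by rw [Nat.choose_succ_right_eq]; ring
        _ ≤ 4 * (2 * Q - 2).choose M * (2 * Q - 2 - M) :=
            Nat.mul_le_mul (ih (by omega)) (by omega)
        _ = 4 * ((2 * Q - 2).choose (M + 1) * (M + 1)) := by rw [Nat.choose_succ_right_eq]; ring
        _ = 4 * (2 * Q - 2).choose (M + 1) * (M + 1) := by ring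
    · have h1 : Q.choose (M + 1) ≤ (2 * Q - 2).choose (M + 1) :=
        Nat.choose_le_choose _ (by omega)
      have h2 : 2 ^ (M + 1) ≤ 2 ^ 2 := Nat.pow_le_pow_right (by norm_num) (by omega)
      calc Q.choose (M + 1) * 2 ^ (M + 1) ≤ (2 * Q - 2).choose (M + 1) * 2 ^ 2 :=
            Nat.mul_le_mul h1 h2
        _ = 4 * (2 * Q - 2).choose (M + 1) := by ring

lemma abs_eig_le {Q M : ℕ} (hQ : 2 ≤ Q) (hM1 : 1 ≤ M) (hM : M ≤ Q) :
    |eig Q M| ≤ 12 * M / 2 ^ M := by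
  have hq : (0 : ℝ) < Q := by exact_mod_cast (show 0 < Q by omega)
  have hm : (1 : ℝ) ≤ M := by exact_mod_cast hM1
  have hmq : (M : ℝ) ≤ Q := by exact_mod_cast hM
  have hq2 : (2 : ℝ) ≤ Q := by exact_mod_cast hQ
  have ha : (0 : ℝ) < ((2 * Q - 2).choose M : ℕ) := by
    exact_mod_cast Nat.choose_pos (by omega)
  have hr : (Q.choose M : ℝ) / ((2 * Q - 2).choose M : ℕ) ≤ 4 / 2 ^ M := by
    rw [div_le_div_iff₀ ha (by positivity)]
    exact_mod_cast choose_mul_pow_le hQ M hM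
  have h0 : 0 ≤ (M : ℝ) * (2 * (Q : ℝ) - 1 - M) / Q :=
    div_nonneg (mul_nonneg (by linarith) (by linarith)) hq.le
  have h1 : (M : ℝ) * (2 * (Q : ℝ) - 1 - M) / Q ≤ 2 * M := by
    rw [div_le_iff₀ hq]; nlinarith
  rw [eig, abs_mul, abs_mul, abs_pow, abs_neg, abs_one, one_pow, one_mul,
    abs_of_nonneg (by positivity), abs_of_nonneg (by linarith)]
  calc _ ≤ 4 / 2 ^ M * (3 * (M : ℝ)) :=
        mul_le_mul hr (by linarith) (by linarith) (by positivity)
    _ = _ := by ring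

lemma level_le_pow : ∀ M : ℕ, 33 ≤ M → (M : ℝ) * ((M : ℝ) + 1) ≤ (3 / 2 : ℝ) ^ M / 500 := by
  intro M hM
  induction M, hM using Nat.le_induction with
  | base => norm_num
  | succ M hM ih =>
    have hm : (33 : ℝ) ≤ M := by exact_mod_cast hM
    push_cast
    rw [pow_succ]
    nlinarith

/-- The levels from 33 on contribute at most `1 / 500`. -/
lemma tail_le {Q : ℕ} (hQ : 33 ≤ Q) (q : ℕ → ℝ) (hq : ∀ M, 0 ≤ q M ∧ q M ≤ (M : ℝ) + 1) :
    -(1 / 500 : ℝ) ≤ ∑ M ∈ Ico 33 (Q + 1),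
      eig Q M * ((3 * (Q : ℝ) - 1 - 2 * M) / (2 * (Q : ℝ) - 1)) * q M := by
  have hterm : ∀ M ∈ Ico 33 (Q + 1), -(24 / 500 : ℝ) * (3 / 4) ^ M ≤
      eig Q M * ((3 * (Q : ℝ) - 1 - 2 * M) / (2 * (Q : ℝ) - 1)) * q M := by
    intro M hM
    rw [Finset.mem_Ico] at hM
    have hmq : (M : ℝ) ≤ Q := by exact_mod_cast (show M ≤ Q by omega)
    have hm : (0 : ℝ) ≤ M := Nat.cast_nonneg M
    have hQr : (33 : ℝ) ≤ Q := by exact_mod_cast hQ
    have he := abs_eig_le (Q := Q) (by omega) (show 1 ≤ M by omega) (by omega)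
    have hm0 : 0 ≤ (3 * (Q : ℝ) - 1 - 2 * M) / (2 * (Q : ℝ) - 1) :=
      div_nonneg (by linarith) (by linarith)
    have hm1 : (3 * (Q : ℝ) - 1 - 2 * M) / (2 * (Q : ℝ) - 1) ≤ 2 := by
      rw [div_le_iff₀ (by linarith)]; linarith
    obtain ⟨q0, q1⟩ := hq M
    have hb : |eig Q M * ((3 * (Q : ℝ) - 1 - 2 * M) / (2 * (Q : ℝ) - 1)) * q M| ≤
        24 / 500 * (3 / 4) ^ M := by
      rw [abs_mul, abs_mul, abs_of_nonneg hm0, abs_of_nonneg q0]
      calc _ ≤ 12 * (M : ℝ) / 2 ^ M * 2 * ((M : ℝ) + 1) :=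
            mul_le_mul (mul_le_mul he hm1 hm0 (by positivity)) q1 q0 (by positivity)
        _ = 24 / 2 ^ M * ((M : ℝ) * ((M : ℝ) + 1)) := by ring
        _ ≤ 24 / 2 ^ M * ((3 / 2 : ℝ) ^ M / 500) :=
            mul_le_mul_of_nonneg_left (level_le_pow M hM.1) (by positivity)
        _ = _ := by
            rw [div_pow, div_pow, show (4 : ℝ) = 2 * 2 by norm_num, mul_pow]
            ring
    linarith [neg_abs_le (eig Q M * ((3 * (Q : ℝ) - 1 - 2 * M) / (2 * (Q : ℝ) - 1)) * q M)]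
  refine le_trans ?_ (Finset.sum_le_sum hterm)
  rw [← Finset.mul_sum]
  have hg : ∑ M ∈ Ico 33 (Q + 1), (3 / 4 : ℝ) ^ M ≤ (3 / 4) ^ 33 / (1 - 3 / 4) :=
    geom_sum_Ico_le_of_lt_one (by norm_num) (by norm_num)
  have hc : (3 / 4 : ℝ) ^ 33 / (1 - 3 / 4) ≤ 1 / 24 := by norm_num
  linarith

end

end Vale.Agent.P359.Gap
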