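import Vale.Agent.P359.Gap.PairBasis

/-!
# P359 gap: the exchange operator is diagonal on the multiplets of a pair centre and a particle

`Kmat` commutes with total lowering, so it keeps the line of highest weight at each level `M`;
its eigenvalue there is read off at one coordinate.
-/

namespace Vale.Agent.P359.Gap

open Matrix Finset

noncomputable section

variable {Q : ℕ}

lemma down_rev (A : ℕ) (i j : Fin (A + 1)) : down A i.rev j.rev = down A j i := by
  simp only [down, Fin.val_rev]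
  by_cases h : (j : ℕ) = (i : ℕ) + 1
  · rw [if_pos h, if_pos (by omega), low, low]
    congr 1
    rw [h]
    have hi : (i : ℕ) + 1 ≤ A := by omega
    rw [show A + 1 - ((i : ℕ) + 1 + 1) = A - ((i : ℕ) + 1) by omega, Nat.cast_sub hi]
    push_cast
    ring
  · rw [if_neg h, if_neg (by omega)]

lemma down2_rev (A B : ℕ) (x y : Fin (A + 1) × Fin (B + 1)) :
    down2 A B (x.1.rev, x.2.rev) (y.1.rev, y.2.rev) = down2 A B y x := by
  simp only [down2, Fin.rev_inj, down_rev, eq_comm]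

lemma pc_rev (hQ : 0 < Q) (C : CI Q) (a b : UI Q) :
    pc Q C.rev a.rev b.rev = -pc Q C a b := by
  simp only [pc, Fin.val_rev]
  have hC := C.isLt
  by_cases h : (a : ℕ) + b = (C : ℕ) + 1
  · rw [if_pos h, if_pos (by omega)]
    rw [show Q + 1 - ((a : ℕ) + 1) = Q - a by omega, show Q + 1 - ((b : ℕ) + 1) = Q - b by omega,
      show 2 * Q - 2 + 1 - ((C : ℕ) + 1) = 2 * Q - 2 - C by omega,
      Nat.choose_symm (by omega), Nat.choose_symm (by omega), Nat.choose_symm (by omega),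
      Nat.cast_sub (by omega), Nat.cast_sub (by omega)]
    ring
  · rw [if_neg h, if_neg (by omega), neg_zero]

/-- Lowering of a pair, moved to the centre. -/
lemma pc_down_sum (hQ : 0 < Q) (C : CI Q) (a b : UI Q) :
    ∑ D, pc Q D a b * down (2 * Q - 2) D C =
      (∑ i, down Q a i * pc Q C i b) + ∑ j, down Q b j * pc Q C a j := by
  have h := congrFun (pc_down hQ C) (a, b)
  rw [down2_mulVec] at h
  simp only at h
  rw [h]
  split_ifs with hC
  · rw [Finset.sum_eq_single ⟨(C : ℕ) + 1, by omega⟩]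
    · rw [down, if_pos rfl]; ring
    · intro D _ hD
      rw [down, if_neg (fun e => hD (Fin.ext e)), mul_zero]
    · simp
  · refine Finset.sum_eq_zero fun D _ => ?_
    rw [down, if_neg (by omega), mul_zero]

/-- Raising of a pair, moved to the centre. -/
lemma pc_up_sum (hQ : 0 < Q) (C : CI Q) (a b : UI Q) :
    ∑ D, pc Q D a b * down (2 * Q - 2) C D =
      (∑ i, down Q i a * pc Q C i b) + ∑ j, down Q j b * pc Q C a j := by
  have h := pc_down_sum hQ C.rev a.rev b.rev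
  rw [← Equiv.sum_comp Fin.revPerm, ← Equiv.sum_comp Fin.revPerm
    (fun i => down Q a.rev i * pc Q C.rev i b.rev), ← Equiv.sum_comp Fin.revPerm
    (fun j => down Q b.rev j * pc Q C.rev a.rev j)] at h
  simp only [Fin.revPerm_apply, down_rev, pc_rev hQ, neg_mul, mul_neg, Finset.sum_neg_distrib] at h
  linarith

lemma down2_mul_apply {A B : ℕ} {ι : Type} (K : Matrix (Fin (A + 1) × Fin (B + 1)) ι ℝ)
    (x : Fin (A + 1) × Fin (B + 1)) (y : ι) :
    (down2 A B * K) x y =
      (∑ i, down A x.1 i * K (i, x.2) y) + ∑ j, down B x.2 j * K (x.1, j) y :=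
  down2_mulVec A B (fun z => K z y) x

lemma mul_down2_apply {A B : ℕ} {ι : Type} (K : Matrix ι (Fin (A + 1) × Fin (B + 1)) ℝ)
    (x : ι) (y : Fin (A + 1) × Fin (B + 1)) :
    (K * down2 A B) x y =
      (∑ i, K x (i, y.2) * down A i y.1) + ∑ j, K x (y.1, j) * down B j y.2 := by
  simp only [mul_apply, down2, mul_add, mul_ite, mul_zero, Finset.sum_add_distrib,
    Fintype.sum_prod_type]
  congr 1
  · simp
  · rw [Finset.sum_comm]
    simp

lemma Kmat_symm : (Kmat Q).IsSymm := by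
  ext x y
  simp only [transpose_apply, Kmat]
  congr 1
  exact Finset.sum_congr rfl fun a _ => mul_comm _ _

/-- The exchange operator commutes with total lowering. -/
theorem Kmat_down (hQ : 0 < Q) :
    Kmat Q * down2 (2 * Q - 2) Q = down2 (2 * Q - 2) Q * Kmat Q := by
  ext ⟨C, u⟩ ⟨D, v⟩
  rw [mul_down2_apply, down2_mul_apply]
  simp only [Kmat]
  have e1 : ∑ D', (∑ a, pc Q C a v * pc Q D' a u) * down (2 * Q - 2) D' D =
      ∑ a, pc Q C a v * ((∑ i, down Q a i * pc Q D i u) + ∑ j, down Q u j * pc Q D a j) := by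
    simp only [Finset.sum_mul, mul_assoc]
    rw [Finset.sum_comm]
    simp only [← Finset.mul_sum, pc_down_sum hQ D _ u]
  have e2 : ∑ C', down (2 * Q - 2) C C' * (∑ a, pc Q C' a v * pc Q D a u) =
      ∑ a, ((∑ i, down Q i a * pc Q C i v) + ∑ j, down Q j v * pc Q C a j) * pc Q D a u := by
    simp only [Finset.mul_sum, ← mul_assoc]
    rw [Finset.sum_comm]
    refine Finset.sum_congr rfl fun a _ => ?_
    rw [← pc_up_sum hQ C a v, Finset.sum_mul]
    exact Finset.sum_congr rfl fun _ _ => by ring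
  have f1 : ∀ z : CI Q → ℝ, ∑ D', -2 * z D' * down (2 * Q - 2) D' D =
      -2 * ∑ D', z D' * down (2 * Q - 2) D' D := fun z => by
    rw [Finset.mul_sum]; exact Finset.sum_congr rfl fun _ _ => by ring
  have f2 : ∀ z : CI Q → ℝ, ∑ C', down (2 * Q - 2) C C' * (-2 * z C') =
      -2 * ∑ C', down (2 * Q - 2) C C' * z C' := fun z => by
    rw [Finset.mul_sum]; exact Finset.sum_congr rfl fun _ _ => by ring
  rw [f1 (fun D' => ∑ a, pc Q C a v * pc Q D' a u), e1,
    f2 (fun C' => ∑ a, pc Q C' a v * pc Q D a u), e2]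
  simp only [mul_add, add_mul, Finset.mul_sum, Finset.sum_mul, Finset.sum_add_distrib]
  have s : ∑ a : UI Q, ∑ i : UI Q, -2 * (pc Q C a v * (down Q a i * pc Q D i u)) =
      ∑ a : UI Q, ∑ i : UI Q, -2 * (down Q i a * pc Q C i v * pc Q D a u) := by
    rw [Finset.sum_comm]
    exact Finset.sum_congr rfl fun _ _ => Finset.sum_congr rfl fun _ _ => by ring
  rw [s]
  have s2 : ∑ j : UI Q, ∑ a : UI Q, -2 * (pc Q C a j * pc Q D a u) * down Q j v =
      ∑ a : UI Q, ∑ j : UI Q, -2 * (down Q j v * pc Q C a j * pc Q D a u) := by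
    rw [Finset.sum_comm]
    exact Finset.sum_congr rfl fun _ _ => Finset.sum_congr rfl fun _ _ => by ring
  have s3 : ∑ j : UI Q, ∑ a : UI Q, down Q u j * (-2 * (pc Q C a v * pc Q D a j)) =
      ∑ a : UI Q, ∑ j : UI Q, -2 * (pc Q C a v * (down Q u j * pc Q D a j)) := by
    rw [Finset.sum_comm]
    exact Finset.sum_congr rfl fun _ _ => Finset.sum_congr rfl fun _ _ => by ring
  rw [s2, s3]
  ring

/-- The exchange operator commutes with total raising. -/
theorem Kmat_up (hQ : 0 < Q) :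
    Kmat Q * (down2 (2 * Q - 2) Q)ᵀ = (down2 (2 * Q - 2) Q)ᵀ * Kmat Q := by
  have h := congrArg transpose (Kmat_down hQ)
  rw [transpose_mul, transpose_mul, Kmat_symm.eq] at h
  exact h.symm

/-- Raising one spin, in coordinates. -/
lemma up_sum (A : ℕ) (i : Fin (A + 1)) (g : Fin (A + 1) → ℝ) :
    ∑ k, down A k i * g k =
      if h : (i : ℕ) < A then low A i * g ⟨(i : ℕ) + 1, by omega⟩ else 0 := by
  split_ifs with h
  · rw [Finset.sum_eq_single ⟨(i : ℕ) + 1, by omega⟩]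
    · rw [down, if_pos rfl]
    · intro b _ hb
      rw [down, if_neg (fun e => hb (Fin.ext e)), zero_mul]
    · simp
  · refine Finset.sum_eq_zero fun b _ => ?_
    rw [down, if_neg (by omega), zero_mul]

lemma up2_mulVec (A B : ℕ) (f : Fin (A + 1) × Fin (B + 1) → ℝ)
    (x : Fin (A + 1) × Fin (B + 1)) : ((down2 A B)ᵀ *ᵥ f) x =
      (∑ i, down A i x.1 * f (i, x.2)) + ∑ j, down B j x.2 * f (x.1, j) := by
  simp only [mulVec, dotProduct, transpose_apply, down2, add_mul, ite_mul, zero_mul,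
    Finset.sum_add_distrib, Fintype.sum_prod_type]
  congr 1
  · simp
  · rw [Finset.sum_comm]
    simp

/-- The highest weight vectors are killed by raising. -/
theorem up2_hw {A B M : ℕ} (hA : M ≤ A) (hB : M ≤ B) : (down2 A B)ᵀ *ᵥ hw A B M = 0 := by
  funext ⟨i, j⟩
  rw [up2_mulVec, up_sum, up_sum, Pi.zero_apply]
  simp only
  by_cases hij : (i : ℕ) + j + 1 = M
  swap
  · have z1 : ∀ h : (i : ℕ) < A, hw A B M (⟨(i : ℕ) + 1, by omega⟩, j) = 0 :=
      fun h => if_neg (by simp only; omega)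
    have z2 : ∀ h : (j : ℕ) < B, hw A B M (i, ⟨(j : ℕ) + 1, by omega⟩) = 0 :=
      fun h => if_neg (by simp only; omega)
    split_ifs with h1 h2 h2 <;> simp [*]
  rw [dif_pos (by omega), dif_pos (by omega), hw, if_pos (by simp only; omega), hw,
    if_pos (by simp only; omega)]
  simp only
  rw [Real.sqrt_mul (Nat.cast_nonneg _), Real.sqrt_mul (Nat.cast_nonneg _)]
  have pa : ∀ {n k : ℕ}, k ≤ n → Real.sqrt (n.choose k : ℝ) ≠ 0 := fun h =>
    Real.sqrt_ne_zero'.2 (by exact_mod_cast Nat.choose_pos h)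
  have la := low_choose (show (i : ℕ) < A by omega)
  have lb := low_choose (show (j : ℕ) < B by omega)
  have hc : (M.choose ((i : ℕ) + 1) : ℝ) * ((i : ℕ) + 1 : ℝ) =
      (M.choose (i : ℕ) : ℝ) * ((j : ℕ) + 1 : ℝ) := by
    have := congrArg (fun k : ℕ => (k : ℝ)) (Nat.choose_succ_right_eq M i)
    rw [show M - (i : ℕ) = (j : ℕ) + 1 by omega] at this
    push_cast at this
    linarith
  have ta : low A i / Real.sqrt (A.choose ((i : ℕ) + 1)) =
      (((i : ℕ) : ℝ) + 1) / Real.sqrt (A.choose i) := by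
    rw [div_eq_div_iff (pa (by omega)) (pa (by omega))]; linarith
  have tb : low B j / Real.sqrt (B.choose ((j : ℕ) + 1)) =
      (((j : ℕ) : ℝ) + 1) / Real.sqrt (B.choose j) := by
    rw [div_eq_div_iff (pa (by omega)) (pa (by omega))]; linarith
  calc _ = (-1) ^ ((i : ℕ) + 1) * (M.choose ((i : ℕ) + 1) : ℝ) / Real.sqrt (B.choose j) *
        (low A i / Real.sqrt (A.choose ((i : ℕ) + 1))) +
      (-1) ^ (i : ℕ) * (M.choose (i : ℕ) : ℝ) / Real.sqrt (A.choose i) *
        (low B j / Real.sqrt (B.choose ((j : ℕ) + 1))) := by ring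
    _ = (-1) ^ (i : ℕ) / (Real.sqrt (A.choose i) * Real.sqrt (B.choose j)) *
        ((M.choose (i : ℕ) : ℝ) * ((j : ℕ) + 1 : ℝ) -
          (M.choose ((i : ℕ) + 1) : ℝ) * ((i : ℕ) + 1 : ℝ)) := by
      rw [ta, tb, pow_succ]; ring
    _ = 0 := by rw [hc, sub_self, mul_zero]

/-- A vector at level `M` killed by raising vanishes if its first coordinate does. -/
theorem eq_zero_of_up {A B M : ℕ} (hA : M ≤ A) (hB : M ≤ B)
    {f : Fin (A + 1) × Fin (B + 1) → ℝ} (hs : ∀ x, (x.1 : ℕ) + x.2 ≠ M → f x = 0)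
    (hup : (down2 A B)ᵀ *ᵥ f = 0) (h0 : f (⟨0, by omega⟩, ⟨M, by omega⟩) = 0) : f = 0 := by
  have key : ∀ k, ∀ h : k ≤ M, f (⟨k, by omega⟩, ⟨M - k, by omega⟩) = 0 := by
    intro k
    induction k with
    | zero => intro _; simpa using h0
    | succ k ih =>
      intro h
      have e := congrFun hup (⟨k, by omega⟩, ⟨M - (k + 1), by omega⟩)
      rw [up2_mulVec, up_sum, up_sum, Pi.zero_apply, dif_pos (by simp only; omega),
        dif_pos (by simp only; omega)] at e
      have h1 : (⟨M - (k + 1) + 1, by omega⟩ : Fin (B + 1)) = ⟨M - k, by omega⟩ :=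
        Fin.ext (by simp only; omega)
      simp only [h1, ih (by omega), mul_zero, add_zero] at e
      refine (mul_eq_zero.1 e).resolve_left (Real.sqrt_ne_zero'.2 (mul_pos (by positivity) ?_))
      exact sub_pos.2 (by exact_mod_cast (show k < A by omega))
  funext ⟨i, j⟩
  by_cases h : (i : ℕ) + j = M
  · have := key i (by omega)
    simpa [show M - (i : ℕ) = j by omega] using this
  · exact hs _ h

lemma Kmat_level {x y : CI Q × UI Q} (h : (x.1 : ℕ) + x.2 ≠ (y.1 : ℕ) + y.2) :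
    Kmat Q x y = 0 := by
  simp only [Kmat]
  rw [Finset.sum_eq_zero, mul_zero]
  intro a _
  by_cases h1 : (a : ℕ) + y.2 = (x.1 : ℕ) + 1
  · rw [pc_eq_zero (C := y.1) (by omega), mul_zero]
  · rw [pc_eq_zero h1, zero_mul]

lemma hw_first {A B M : ℕ} (hB : M ≤ B) :
    hw A B M (⟨0, by omega⟩, ⟨M, by omega⟩) = 1 / Real.sqrt (B.choose M) := by
  simp [hw]

/-- The exchange operator at the first coordinate of a highest weight vector. -/
lemma Kmat_hw_first (hQ : 2 ≤ Q) {M : ℕ} (hM : M ≤ Q) :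
    (Kmat Q *ᵥ hw (2 * Q - 2) Q M) (⟨0, by omega⟩, ⟨M, by omega⟩) =
      eig Q M * (1 / Real.sqrt (Q.choose M)) := by
  set z : CI Q := ⟨0, by omega⟩ with hz
  set m : UI Q := ⟨M, by omega⟩ with hm
  have e : (Kmat Q *ᵥ hw (2 * Q - 2) Q M) (z, m) = -2 * ∑ p : UI Q × UI Q,
      pc Q z p.1 p.2 * ∑ D, pc Q D p.1 m * hw (2 * Q - 2) Q M (D, p.2) := by
    simp only [mulVec, dotProduct, Kmat, Fintype.sum_prod_type, Finset.mul_sum, Finset.sum_mul]
    rw [Finset.sum_comm]
    refine (Finset.sum_congr rfl fun v _ => ?_).trans Finset.sum_comm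
    rw [Finset.sum_comm]
    exact Finset.sum_congr rfl fun a _ => Finset.sum_congr rfl fun D _ => by ring
  rw [e, Fintype.sum_eq_add ((⟨0, by omega⟩, ⟨1, by omega⟩) : UI Q × UI Q)
    (⟨1, by omega⟩, ⟨0, by omega⟩) (by simp)]
  swap
  · rintro ⟨a, b⟩ ⟨h1, h2⟩
    rw [pc_eq_zero, zero_mul]
    simp only [hz, ne_eq, Prod.mk.injEq, Fin.ext_iff] at h1 h2 ⊢
    omega
  have hQr : (0 : ℝ) < Q := by exact_mod_cast (show 0 < Q by omega)
  have p2Q : Real.sqrt (2 * (Q : ℝ)) * Real.sqrt (2 * (Q : ℝ)) = 2 * Q :=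
    Real.mul_self_sqrt (by positivity)
  have pQ : Real.sqrt (Q : ℝ) * Real.sqrt (Q : ℝ) = Q := Real.mul_self_sqrt hQr.le
  have pc0 : pc Q z ⟨0, by omega⟩ ⟨1, by omega⟩ = Real.sqrt Q / Real.sqrt (2 * Q) := by
    rw [pc_eq, if_pos (by simp [hz])]; simp [wt, pcNorm, hz]
  have pc1 : pc Q z ⟨1, by omega⟩ ⟨0, by omega⟩ = -(Real.sqrt Q / Real.sqrt (2 * Q)) := by
    rw [pc_swap, pc0]
  rw [pc0, pc1]
  have hnorm : ∀ D : ℕ, pcNorm Q D =
      Real.sqrt (2 * Q) * Real.sqrt ((2 * Q - 2).choose D : ℝ) := fun D => by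
    rw [pcNorm, Real.sqrt_mul (by positivity)]
  have hB2 : (∑ D, pc Q D ⟨1, by omega⟩ m * hw (2 * Q - 2) Q M (D, ⟨0, by omega⟩)) =
      ((M : ℝ) - 1) * (Real.sqrt Q * Real.sqrt (Q.choose M)) /
        (Real.sqrt (2 * Q) * Real.sqrt ((2 * Q - 2).choose M : ℝ)) *
        ((-1) ^ M / Real.sqrt ((2 * Q - 2).choose M : ℝ)) := by
    rw [Finset.sum_eq_single ⟨M, by omega⟩]
    · rw [pc_eq, if_pos (by simp [hm]; omega), hw, if_pos (by simp)]
      simp [hnorm, hm, wt]
    · intro D _ hD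
      rw [hw, if_neg, mul_zero]
      simpa using fun e => hD (Fin.ext e)
    · simp
  rw [hB2]
  rcases Nat.eq_zero_or_pos M with h0 | hpos
  · subst h0
    rw [Finset.sum_eq_zero (fun D _ => by rw [pc_eq_zero (by simp [hm]), zero_mul])]
    simp only [eig, Nat.choose_zero_right, pow_zero, Nat.cast_one, Nat.cast_zero, Real.sqrt_one]
    field_simp
    linear_combination (Q : ℝ) * p2Q - 2 * (Q : ℝ) * pQ
  obtain ⟨k, rfl⟩ : ∃ k, M = k + 1 := ⟨M - 1, by omega⟩
  have hB1 : (∑ D, pc Q D ⟨0, by omega⟩ m * hw (2 * Q - 2) Q (k + 1) (D, ⟨1, by omega⟩)) =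
      ((k : ℝ) + 1) * Real.sqrt (Q.choose (k + 1)) /
        (Real.sqrt (2 * Q) * Real.sqrt ((2 * Q - 2).choose k : ℝ)) *
        ((-1) ^ k * ((k : ℝ) + 1) /
          (Real.sqrt ((2 * Q - 2).choose k : ℝ) * Real.sqrt Q)) := by
    rw [Finset.sum_eq_single ⟨k, by omega⟩]
    · rw [pc_eq, if_pos (by simp [hm]), hw, if_pos (by simp)]
      simp [hnorm, hm, wt, Real.sqrt_mul]
    · intro D _ hD
      rw [pc_eq_zero, zero_mul]
      simpa [hm, eq_comm, Fin.ext_iff] using hD
    · simp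
  rw [hB1]
  have hq : (0 : ℝ) < Q.choose (k + 1) := by exact_mod_cast Nat.choose_pos hM
  have ha0 : (0 : ℝ) < ((2 * Q - 2).choose k : ℕ) := by exact_mod_cast Nat.choose_pos (by omega)
  have ha1 : (0 : ℝ) < ((2 * Q - 2).choose (k + 1) : ℕ) := by
    exact_mod_cast Nat.choose_pos (by omega)
  have hst : (((2 * Q - 2).choose (k + 1) : ℕ) : ℝ) * ((k : ℝ) + 1) =
      (((2 * Q - 2).choose k : ℕ) : ℝ) * (2 * (Q : ℝ) - 2 - k) := by
    have := congrArg (fun n : ℕ => (n : ℝ)) (Nat.choose_succ_right_eq (2 * Q - 2) k)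
    push_cast [Nat.cast_sub (show k ≤ 2 * Q - 2 by omega),
      Nat.cast_sub (show 2 ≤ 2 * Q by omega)] at this
    linarith
  simp only [eig]
  push_cast
  calc _ = -((-1) ^ k * ((k : ℝ) + 1) ^ 2 * Real.sqrt (Q.choose (k + 1))) * 2 *
        (Real.sqrt Q / Real.sqrt Q) /
        ((Real.sqrt (2 * Q) * Real.sqrt (2 * Q)) * (Real.sqrt ((2 * Q - 2).choose k : ℝ) *
          Real.sqrt ((2 * Q - 2).choose k : ℝ))) +
      2 * ((-1) ^ (k + 1) * (k : ℝ) * Real.sqrt (Q.choose (k + 1)) *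
        (Real.sqrt Q * Real.sqrt Q)) /
        ((Real.sqrt (2 * Q) * Real.sqrt (2 * Q)) * (Real.sqrt ((2 * Q - 2).choose (k + 1) : ℝ) *
          Real.sqrt ((2 * Q - 2).choose (k + 1) : ℝ))) := by ring
    _ = _ := by
      rw [p2Q, pQ, Real.mul_self_sqrt ha0.le, Real.mul_self_sqrt ha1.le,
        div_self (Real.sqrt_ne_zero'.2 hQr)]
      have hs : Real.sqrt (Q.choose (k + 1) : ℝ) =
          (Q.choose (k + 1) : ℝ) * (1 / Real.sqrt (Q.choose (k + 1) : ℝ)) := by
        rw [mul_one_div, Real.div_sqrt]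
      rw [pow_succ]
      nth_rewrite 1 2 [hs]
      field_simp
      linear_combination -((-1 : ℝ) ^ k * ((k : ℝ) + 1)) * hst

/-- The eigenvalue of the exchange operator at each level. -/
theorem Kmat_hw (hQ : 2 ≤ Q) {M : ℕ} (hM : M ≤ Q) :
    Kmat Q *ᵥ hw (2 * Q - 2) Q M = eig Q M • hw (2 * Q - 2) Q M := by
  rw [← sub_eq_zero]
  refine eq_zero_of_up (A := 2 * Q - 2) (B := Q) (by omega) hM (fun x hx => ?_) ?_ ?_
  · rw [Pi.sub_apply, Pi.smul_apply]
    simp only [hw, if_neg hx, smul_zero, sub_zero]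
    refine Finset.sum_eq_zero fun y _ => ?_
    by_cases hy : (y.1 : ℕ) + y.2 = M
    · show Kmat Q x y * hw (2 * Q - 2) Q M y = 0
      rw [Kmat_level (fun e => hx (e.trans hy)), zero_mul]
    · show Kmat Q x y * hw (2 * Q - 2) Q M y = 0
      rw [hw, if_neg hy, mul_zero]
  · rw [mulVec_sub, mulVec_smul, mulVec_mulVec, ← Kmat_up (by omega), ← mulVec_mulVec,
      up2_hw (A := 2 * Q - 2) (by omega) hM, mulVec_zero, smul_zero, sub_zero]
  · rw [Pi.sub_apply, Pi.smul_apply, Kmat_hw_first hQ hM, hw_first hM, smul_eq_mul, sub_self]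

lemma eig_zero : eig Q 0 = -1 := by simp [eig]

lemma eig_one (hQ : 2 ≤ Q) : eig Q 1 = -1 := by
  have h : (1 : ℝ) < Q := by exact_mod_cast (show 1 < Q by omega)
  have : (Q : ℝ) - 1 ≠ 0 := by linarith
  rw [eig, Nat.choose_one_right, Nat.choose_one_right, Nat.cast_sub (by omega)]
  push_cast
  field_simp
  ring

lemma eig_three (hQ : 3 ≤ Q) : eig Q 3 = -1 := by
  obtain ⟨p, rfl⟩ : ∃ p, Q = p + 3 := ⟨Q - 3, by omega⟩
  have h : ∀ n : ℕ, ((((n + 3).choose 3 : ℕ) : ℝ)) = ((n : ℝ) + 3) * (n + 2) * (n + 1) / 6 := by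
    intro n
    induction n with
    | zero => norm_num
    | succ n ih =>
      rw [show n + 1 + 3 = (n + 3) + 1 by omega, Nat.choose_succ_succ', Nat.choose_two_right]
      have e : 2 ∣ (n + 3) * (n + 2) := by
        simpa using (Nat.even_mul_pred_self (n + 3)).two_dvd
      rw [show n + 3 - 1 = n + 2 by omega]
      push_cast [ih, Nat.cast_div e (by norm_num : (2 : ℝ) ≠ 0)]
      ring
  rw [eig, show 2 * (p + 3) - 2 = (2 * p + 1) + 3 by omega, h, h]
  push_cast
  field_simp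
  ring

/-- The exchange operator is minus one at the levels 0, 1 and 3. -/
theorem Kmat_hw_neg (hQ : 3 ≤ Q) {M : ℕ} (hM : M ∈ ({0, 1, 3} : Finset ℕ)) :
    Kmat Q *ᵥ hw (2 * Q - 2) Q M = -hw (2 * Q - 2) Q M := by
  simp only [Finset.mem_insert, Finset.mem_singleton] at hM
  rcases hM with rfl | rfl | rfl
  · rw [Kmat_hw (by omega) (by omega), eig_zero, neg_smul, one_smul]
  · rw [Kmat_hw (by omega) (by omega), eig_one (by omega), neg_smul, one_smul]
  · rw [Kmat_hw (by omega) hQ, eig_three hQ, neg_smul, one_smul]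

end

end Vale.Agent.P359.Gap
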