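import Vale.Agent.P359.Gap.Spectral.Exchange
import Mathlib.LinearAlgebra.Matrix.Kronecker
import Mathlib.Data.Matrix.Basic

/-!
# P359 gap: the trace of an operator commuting with lowering, for two spins

The vectors `F ^ t hw M` form an orthogonal basis; an operator commuting with lowering has the same
normalised expectation along each string.
-/

namespace Vale.Agent.P359.Gap

open Matrix Finset Kronecker

noncomputable section

variable {A B : ℕ}

lemma down2_eq_kron : down2 A B = down A ⊗ₖ (1 : Matrix (Fin (B + 1)) (Fin (B + 1)) ℝ) +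
    (1 : Matrix (Fin (A + 1)) (Fin (A + 1)) ℝ) ⊗ₖ down B := by
  ext x y
  simp [down2, one_apply]

/-- The commutator of raising and lowering for one spin. -/
lemma comm_down : (down A)ᵀ * down A - down A * (down A)ᵀ =
    diagonal (fun a : Fin (A + 1) => (A : ℝ) - 2 * (a : ℕ)) := by
  ext i j
  simp only [Matrix.sub_apply, mul_apply, transpose_apply]
  rw [up_sum, down_sum]
  by_cases hij : i = j
  · subst hij
    rw [diagonal_apply_eq]
    have hi : ((i : ℕ) : ℝ) ≤ A := by exact_mod_cast Nat.lt_succ_iff.1 i.isLt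
    have t1 : (if h : (i : ℕ) < A then low A i * down A ⟨(i : ℕ) + 1, by omega⟩ i else 0) =
        (((i : ℕ) : ℝ) + 1) * ((A : ℝ) - (i : ℕ)) := by
      split_ifs with h
      · rw [down, if_pos rfl, low, Real.mul_self_sqrt (mul_nonneg (by positivity) (by linarith))]
      · rw [show (i : ℕ) = A by omega, sub_self, mul_zero]
    have t2 : (if h : 0 < (i : ℕ) then low A ((i : ℕ) - 1) * down A i ⟨(i : ℕ) - 1, by omega⟩
        else 0) = ((i : ℕ) : ℝ) * ((A : ℝ) - (i : ℕ) + 1) := by
      split_ifs with h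
      · rw [down, if_pos (by simp only; omega), low, Nat.cast_sub (by omega)]
        push_cast
        rw [Real.mul_self_sqrt (mul_nonneg (by simp) (by linarith))]
        ring
      · rw [show (i : ℕ) = 0 by omega]; simp
    rw [t1, t2]
    ring
  · rw [diagonal_apply_ne _ hij]
    have hne : (i : ℕ) ≠ j := fun e => hij (Fin.ext e)
    have t1 : (if h : (i : ℕ) < A then low A i * down A ⟨(i : ℕ) + 1, by omega⟩ j else 0) = 0 := by
      split_ifs
      · rw [down, if_neg (by simp only; omega), mul_zero]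
      · rfl
    have t2 : (if h : 0 < (i : ℕ) then low A ((i : ℕ) - 1) * down A j ⟨(i : ℕ) - 1, by omega⟩
        else 0) = 0 := by
      split_ifs
      · rw [down, if_neg (by simp only; omega), mul_zero]
      · rfl
    rw [t1, t2, sub_zero]

/-- Twice the weight, of two spins. -/
def weight (A B : ℕ) (x : Fin (A + 1) × Fin (B + 1)) : ℝ :=
  (A : ℝ) + B - 2 * (((x.1 : ℕ) : ℝ) + (x.2 : ℕ))

/-- The commutator of raising and lowering for two spins. -/
lemma comm_down2 : (down2 A B)ᵀ * down2 A B - down2 A B * (down2 A B)ᵀ =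
    diagonal (weight A B) := by
  rw [down2_eq_kron, transpose_add, ← kroneckerMap_transpose, ← kroneckerMap_transpose,
    transpose_one, transpose_one]
  simp only [add_mul, mul_add, ← mul_kronecker_mul, Matrix.one_mul, Matrix.mul_one]
  have hA := comm_down (A := A)
  have hB := comm_down (A := B)
  rw [sub_eq_iff_eq_add] at hA hB
  rw [hA, hB]
  ext ⟨i, j⟩ ⟨k, l⟩
  simp only [Matrix.sub_apply, Matrix.add_apply, kroneckerMap_apply, diagonal_apply, one_apply,
    weight, Prod.mk.injEq]
  split_ifs <;> simp_all <;> ring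

lemma down2_dot (v w : Fin (A + 1) × Fin (B + 1) → ℝ) :
    (down2 A B *ᵥ v) ⬝ᵥ w = v ⬝ᵥ ((down2 A B)ᵀ *ᵥ w) := by
  rw [mulVec_transpose, dotProduct_comm v, ← dotProduct_mulVec, dotProduct_comm]

/-- The vectors below the highest weight vector at level `M`. -/
def desc (A B M : ℕ) : ℕ → Fin (A + 1) × Fin (B + 1) → ℝ
  | 0 => hw A B M
  | t + 1 => down2 A B *ᵥ desc A B M t

lemma desc_supp (M : ℕ) : ∀ t, ∀ x : Fin (A + 1) × Fin (B + 1),
    (x.1 : ℕ) + x.2 ≠ M + t → desc A B M t x = 0
  | 0, x, h => if_neg (by simpa using h)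
  | t + 1, x, h => by
    rw [desc, down2_mulVec, down_sum, down_sum]
    have z1 : ∀ h1 : 0 < (x.1 : ℕ), desc A B M t (⟨(x.1 : ℕ) - 1, by omega⟩, x.2) = 0 :=
      fun _ => desc_supp M t _ (by simp only; omega)
    have z2 : ∀ h1 : 0 < (x.2 : ℕ), desc A B M t (x.1, ⟨(x.2 : ℕ) - 1, by omega⟩) = 0 :=
      fun _ => desc_supp M t _ (by simp only; omega)
    split_ifs <;> simp [*]

lemma weight_desc (M t : ℕ) : diagonal (weight A B) *ᵥ desc A B M t =
    ((A : ℝ) + B - 2 * ((M : ℝ) + t)) • desc A B M t := by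
  funext x
  rw [mulVec_diagonal, Pi.smul_apply, smul_eq_mul]
  by_cases h : (x.1 : ℕ) + x.2 = M + t
  · have : ((x.1 : ℕ) : ℝ) + ((x.2 : ℕ) : ℝ) = (M : ℝ) + t := by exact_mod_cast h
    rw [weight, this]
  · rw [desc_supp M t x h, mul_zero, mul_zero]

/-- The factor of raising after lowering. -/
def step (A B M t : ℕ) : ℝ := ((t : ℝ) + 1) * ((A : ℝ) + B - 2 * M - t)

lemma up_desc_succ {M : ℕ} (hA : M ≤ A) (hB : M ≤ B) : ∀ t,
    (down2 A B)ᵀ *ᵥ desc A B M (t + 1) = step A B M t • desc A B M t := by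
  have key : ∀ v, (down2 A B)ᵀ *ᵥ (down2 A B *ᵥ v) =
      down2 A B *ᵥ ((down2 A B)ᵀ *ᵥ v) + diagonal (weight A B) *ᵥ v := fun v => by
    rw [mulVec_mulVec, mulVec_mulVec, ← add_mulVec, ← comm_down2, add_sub_cancel]
  intro t
  induction t with
  | zero =>
    rw [show desc A B M 1 = down2 A B *ᵥ desc A B M 0 from rfl, key, weight_desc,
      show desc A B M 0 = hw A B M from rfl, up2_hw hA hB, mulVec_zero, zero_add]
    simp [step]
  | succ t ih =>
    rw [show desc A B M (t + 1 + 1) = down2 A B *ᵥ desc A B M (t + 1) from rfl, key, weight_desc,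
      ih, mulVec_smul, show down2 A B *ᵥ desc A B M t = desc A B M (t + 1) from rfl, ← add_smul]
    congr 1
    simp only [step]
    push_cast
    ring

lemma desc_dot_succ {M : ℕ} (hA : M ≤ A) (hB : M ≤ B) (t : ℕ)
    (w : Fin (A + 1) × Fin (B + 1) → ℝ) :
    desc A B M (t + 1) ⬝ᵥ (down2 A B *ᵥ w) = step A B M t * (desc A B M t ⬝ᵥ w) := by
  rw [dotProduct_comm, down2_dot, up_desc_succ hA hB, dotProduct_smul, smul_eq_mul,
    dotProduct_comm]

lemma hw_dot_down {M : ℕ} (hA : M ≤ A) (hB : M ≤ B) (w : Fin (A + 1) × Fin (B + 1) → ℝ) :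
    hw A B M ⬝ᵥ (down2 A B *ᵥ w) = 0 := by
  rw [dotProduct_comm, down2_dot, up2_hw hA hB, dotProduct_zero]

lemma desc_orth {M M' : ℕ} (hA : M ≤ A) (hB : M ≤ B) (hA' : M' ≤ A) (hB' : M' ≤ B) :
    ∀ t t', (M ≠ M' ∨ t ≠ t') → desc A B M t ⬝ᵥ desc A B M' t' = 0
  | 0, 0, h => by
    have hne : M ≠ M' := h.resolve_right (by simp)
    refine Finset.sum_eq_zero fun x _ => ?_
    by_cases hx : (x.1 : ℕ) + x.2 = M
    · rw [desc_supp M' 0 x (by omega), mul_zero]
    · rw [desc_supp M 0 x (by omega), zero_mul]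
  | 0, t' + 1, _ => hw_dot_down hA hB _
  | t + 1, 0, _ => by rw [dotProduct_comm]; exact hw_dot_down hA' hB' _
  | t + 1, t' + 1, h => by
    rw [show desc A B M' (t' + 1) = down2 A B *ᵥ desc A B M' t' from rfl, desc_dot_succ hA hB,
      desc_orth hA hB hA' hB' t t' (h.imp_right fun h e => h (by omega)), mul_zero]

lemma desc_pos {M : ℕ} (hA : M ≤ A) (hB : M ≤ B) :
    ∀ t, t ≤ A + B - 2 * M → 0 < desc A B M t ⬝ᵥ desc A B M t
  | 0, _ => by
    refine Finset.sum_pos' (fun x _ => mul_self_nonneg _)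
      ⟨(⟨0, by omega⟩, ⟨M, by omega⟩), Finset.mem_univ _, ?_⟩
    rw [show desc A B M 0 = hw A B M from rfl, hw_first hB]
    have : (0 : ℝ) < B.choose M := by exact_mod_cast Nat.choose_pos hB
    positivity
  | t + 1, h => by
    nth_rw 2 [show desc A B M (t + 1) = down2 A B *ᵥ desc A B M t from rfl]
    rw [desc_dot_succ hA hB]
    refine mul_pos (mul_pos (by positivity) ?_) (desc_pos hA hB t (by omega))
    have : ((t + 2 * M + 1 : ℕ) : ℝ) ≤ ((A + B : ℕ) : ℝ) := by exact_mod_cast (show t + 2*M+1 ≤ A+B by omega)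
    push_cast at this
    linarith

lemma quot_desc {M : ℕ} (hA : M ≤ A) (hB : M ≤ B)
    {X : Matrix (Fin (A + 1) × Fin (B + 1)) (Fin (A + 1) × Fin (B + 1)) ℝ}
    (hX : X * down2 A B = down2 A B * X) :
    ∀ t, t ≤ A + B - 2 * M → quot X (desc A B M t) = quot X (hw A B M)
  | 0, _ => rfl
  | t + 1, h => by
    have hp := desc_pos hA hB (t + 1) h
    rw [← quot_desc hA hB hX t (by omega), quot, quot]
    nth_rw 2 [show desc A B M (t + 1) = down2 A B *ᵥ desc A B M t from rfl]
    rw [mulVec_mulVec, hX, ← mulVec_mulVec, desc_dot_succ hA hB]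
    nth_rw 2 [show desc A B M (t + 1) = down2 A B *ᵥ desc A B M t from rfl] at hp ⊢
    rw [desc_dot_succ hA hB] at hp ⊢
    rw [mul_div_mul_left _ _ (left_ne_zero_of_mul hp.ne')]

/-- The labels of the basis of highest weight strings. -/
abbrev Strings (A B : ℕ) := Σ M : Fin (B + 1), Fin (A + B - 2 * (M : ℕ) + 1)

lemma card_strings (h : B ≤ A) :
    Fintype.card (Strings A B) = Fintype.card (Fin (A + 1) × Fin (B + 1)) := by
  have key : ∀ k, k ≤ B + 1 →
      ∑ M ∈ range k, (A + B - 2 * M + 1) + k * k = k * (A + B + 2) := by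
    intro k
    induction k with
    | zero => simp
    | succ k ih =>
      intro hk
      have := ih (by omega)
      obtain ⟨r, hr⟩ : ∃ r, A + B = 2 * k + r := ⟨A + B - 2 * k, by omega⟩
      rw [Finset.sum_range_succ, hr, show 2 * k + r - 2 * k = r by omega]
      rw [hr] at this
      linarith
  simp only [Fintype.card_sigma, Fintype.card_prod, Fintype.card_fin]
  rw [Fin.sum_univ_eq_sum_range (fun M => A + B - 2 * M + 1)]
  have := key (B + 1) le_rfl
  have e : (B + 1) * (A + B + 2) = (A + 1) * (B + 1) + (B + 1) * (B + 1) := by ring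
  omega

/-- The trace of an operator that commutes with lowering, over highest weight vectors. -/
theorem trace_strings (hBA : B ≤ A)
    {X : Matrix (Fin (A + 1) × Fin (B + 1)) (Fin (A + 1) × Fin (B + 1)) ℝ}
    (hX : X * down2 A B = down2 A B * X) :
    X.trace = ∑ M ∈ range (B + 1), ((A : ℝ) + B + 1 - 2 * M) * quot X (hw A B M) := by
  classical
  obtain ⟨e⟩ : Nonempty (Strings A B ≃ Fin (A + 1) × Fin (B + 1)) :=
    ⟨Fintype.equivOfCardEq (card_strings hBA)⟩
  let d : Strings A B → Fin (A + 1) × Fin (B + 1) → ℝ := fun i => desc A B i.1 i.2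
  have hd : ∀ i : Strings A B, 0 < d i ⬝ᵥ d i := fun i =>
    desc_pos (by omega) (by omega) _ (by omega)
  obtain ⟨U, hUa⟩ : ∃ U : Matrix (Fin (A + 1) × Fin (B + 1)) (Fin (A + 1) × Fin (B + 1)) ℝ,
      ∀ x y, U x y = d (e.symm y) x / Real.sqrt (d (e.symm y) ⬝ᵥ d (e.symm y)) :=
    ⟨Matrix.of fun x y => d (e.symm y) x / Real.sqrt (d (e.symm y) ⬝ᵥ d (e.symm y)),
      fun _ _ => rfl⟩
  have hU : Uᵀ * U = 1 := by
    ext y y'
    simp only [mul_apply, transpose_apply, hUa, div_mul_div_comm, ← Finset.sum_div, one_apply]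
    split_ifs with hy
    · subst hy
      rw [Real.mul_self_sqrt (hd _).le]
      exact div_self (hd _).ne'
    · have hz : d (e.symm y) ⬝ᵥ d (e.symm y') = 0 := by
        refine desc_orth (by omega) (by omega) (by omega) (by omega) _ _ ?_
        by_contra hcon
        push Not at hcon
        apply hy
        apply e.symm.injective
        revert hcon
        generalize e.symm y = i
        generalize e.symm y' = i'
        rintro ⟨h1, h2⟩
        obtain ⟨a, b⟩ := i
        obtain ⟨a', b'⟩ := i'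
        obtain rfl : a = a' := Fin.ext h1
        obtain rfl : b = b' := Fin.ext h2
        rfl
      rw [show ∑ x, d (e.symm y) x * d (e.symm y') x = d (e.symm y) ⬝ᵥ d (e.symm y') from rfl,
        hz, zero_div]
  have h1 : X.trace = (Uᵀ * X * U).trace := by
    rw [trace_mul_cycle, mul_eq_one_comm.1 hU, Matrix.one_mul]
  have h2 : ∀ y, (Uᵀ * X * U) y y = quot X (d (e.symm y)) := by
    intro y
    have hs := Real.mul_self_sqrt (hd (e.symm y)).le
    conv_rhs => rw [quot, ← hs]
    simp only [mul_apply, transpose_apply, hUa, dotProduct, mulVec, Finset.sum_mul, Finset.mul_sum,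
      Finset.sum_div]
    rw [Finset.sum_comm]
    refine Finset.sum_congr rfl fun a _ => Finset.sum_congr rfl fun b _ => ?_
    ring
  rw [h1, trace]
  simp only [diag_apply, h2]
  rw [e.symm.sum_comp (fun i => quot X (d i)), Fintype.sum_sigma,
    ← Fin.sum_univ_eq_sum_range (fun M => ((A : ℝ) + B + 1 - 2 * M) * quot X (hw A B M))]
  refine Finset.sum_congr rfl fun M _ => ?_
  refine (Finset.sum_congr rfl fun (t : Fin (A + B - 2 * (M : ℕ) + 1)) _ =>
    quot_desc (M := (M : ℕ)) (by omega) (by omega) hX (t : ℕ) (by omega)).trans ?_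
  rw [Finset.sum_const, Finset.card_univ, Fintype.card_fin, nsmul_eq_mul]
  congr 1
  push_cast [Nat.cast_sub (show 2 * (M : ℕ) ≤ A + B by omega)]
  ring

end

end Vale.Agent.P359.Gap
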